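import Vale.Agent.P317.MathlibUsed

/-!
Probabilistic oracle Turing machines with finitely many binary stacks.
-/

namespace Vale.Agent.P317Z

open Turing

/-- A probabilistic oracle Turing machine. It has the stacks `0, …, k` of bits, a finite set `Λ`
of states, a finite memory `σ`, and two transition functions `δ false` and `δ true`, whose values
are instructions of the stack machines `Turing.TM2` of Mathlib. The stack `tape` is the oracle
tape; `query`, `yes`, `no` are the three special states of an oracle machine. -/
structure Machine where
  k : ℕ
  Λ : Type
  σ : Type
  finΛ : Finite Λ
  finσ : Finite σ
  tape : Fin (k + 1)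
  start : Λ
  query : Λ
  yes : Λ
  no : Λ
  init : σ
  δ : Bool → Λ → TM2.Stmt (fun _ : Fin (k + 1) => Bool) Λ σ

namespace Machine

/-- Configurations: the state (`none` if the machine has stopped), the memory, the stacks. -/
abbrev Cfg (M : Machine) : Type := TM2.Cfg (fun _ : Fin (M.k + 1) => Bool) M.Λ M.σ

open Classical in
/-- One step with the oracle `O`, when the coin of this step shows `b`. In the state `query` the
machine moves to `yes` or to `no`, according to whether the word on the oracle tape is in `O`; in
any other state it follows the transition function `δ b`. -/
noncomputable def step (M : Machine) (O : Set (List Bool)) (c : M.Cfg) (b : Bool) : M.Cfg :=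
  match c.l with
  | none => c
  | some l =>
    if l = M.query then ⟨some (if c.stk M.tape ∈ O then M.yes else M.no), c.var, c.stk⟩
    else TM2.stepAux (M.δ b l) c.var c.stk

/-- The initial configuration: the input is on stack `0`, the other stacks are empty. -/
def first (M : Machine) (x : List Bool) : M.Cfg :=
  ⟨some M.start, M.init, fun i => if i = 0 then x else []⟩

/-- The configuration after one step for each of the coins `ρ`. -/
noncomputable def run (M : Machine) (O : Set (List Bool)) (c : M.Cfg) (ρ : List Bool) : M.Cfg :=
  ρ.foldl (M.step O) c

open Classical in
/-- The number of oracle calls during these steps. -/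
noncomputable def calls (M : Machine) (O : Set (List Bool)) : M.Cfg → List Bool → ℕ
  | _, [] => 0
  | c, b :: ρ => (if c.l = some M.query then 1 else 0) + calls M O (M.step O c b) ρ

end Machine

/-- The two independence oracles as one set of words: the first bit selects the matroid, the rest
is the characteristic word of a set. -/
def oracle {n : ℕ} (M₁ M₂ : Matroid (Fin n)) : Set (List Bool) :=
  {w | ∃ (i : Bool) (S : List Bool), w = i :: S ∧
    (if i then M₂ else M₁).Indep {x : Fin n | S.getD x false = true}}

/-- A pair of words as one word: every bit of the first word is preceded by `true`, then comes
`false`, then the second word. -/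
def pair : List Bool → List Bool → List Bool
  | [], y => false :: y
  | b :: x, y => true :: b :: pair x y

/-- The input: `n` and the numerators and denominators of `ε` and `δ`, all in binary. -/
def code (n : ℕ) (ε δ : ℚ) : List Bool :=
  pair n.bits (pair ε.num.natAbs.bits (pair ε.den.bits (pair δ.num.natAbs.bits δ.den.bits)))

end Vale.Agent.P317Z
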