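import Vale.Agent.P317Z.Main

/-!
Numerical bounds.
-/

namespace Vale.Agent.P317Z

open Vale.Agent.Lib.PolyTime Vale.Agent.P317

theorem pair_eq (x y : List Bool) : pair x y = pr x y := by
  induction x with
  | nil => rfl
  | cons b x ih => exact congrArg (fun z => true :: b :: z) ih

/-- The input as a tuple of numbers. -/
def inp (n : ℕ) (ε δ : ℚ) : Inp := (n, ε.num.natAbs, ε.den, δ.num.natAbs, δ.den)

theorem code_eq (n : ℕ) (ε δ : ℚ) : code n ε δ = enc (inp n ε δ) := by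
  unfold code
  rw [pair_eq, pair_eq, pair_eq, pair_eq]
  rfl

theorem size_le {k : ℕ} (hk : 0 < k) : (Nat.size k : ℝ) ≤ Real.logb 2 k + 1 := by
  have h1 : 0 < Nat.size k := Nat.size_pos.2 hk
  have h2 : 2 ^ (Nat.size k - 1) ≤ k := Nat.lt_size.1 (by omega)
  have h3 : ((Nat.size k - 1 : ℕ) : ℝ) ≤ Real.logb 2 k := by
    rw [Real.le_logb_iff_rpow_le one_lt_two (by exact_mod_cast hk), Real.rpow_natCast]
    exact_mod_cast h2
  rw [Nat.cast_sub h1, Nat.cast_one] at h3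
  linarith

theorem num_cast {q : ℚ} (h : 0 < q) : ((q.num.natAbs : ℕ) : ℝ) = q.num := by
  rw [Nat.cast_natAbs, abs_of_pos (Rat.num_pos.2 h)]

theorem inv_cast {q : ℚ} (h : 0 < q) : 1 / (q : ℝ) = (q.den : ℝ) / (q.num.natAbs : ℕ) := by
  rw [num_cast h, Rat.cast_def, one_div_div]

theorem num_pos {q : ℚ} (h : 0 < q) : 0 < q.num.natAbs :=
  Int.natAbs_pos.2 (Rat.num_pos.2 h).ne'

theorem one_lt_inv {q : ℚ} (h : 0 < q) (h1 : q < 1) : 1 < 1 / (q : ℝ) :=
  one_lt_one_div (by exact_mod_cast h) (by exact_mod_cast h1)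

theorem div_pos' {q : ℚ} (h : 0 < q) (h1 : q < 1) : 0 < q.den / q.num.natAbs := by
  have h2 := one_lt_inv h h1
  rw [inv_cast h, one_lt_div (by exact_mod_cast num_pos h)] at h2
  exact Nat.div_pos (by exact_mod_cast h2.le) (num_pos h)

theorem lt_div_succ {q : ℚ} (h : 0 < q) : 1 / (q : ℝ) < (q.den / q.num.natAbs + 1 : ℕ) := by
  rw [inv_cast h, div_lt_iff₀ (by exact_mod_cast num_pos h)]
  rw [mul_comm]
  exact_mod_cast Nat.lt_mul_div_succ q.den (num_pos h)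

theorem div_le' {q : ℚ} (h : 0 < q) : ((q.den / q.num.natAbs : ℕ) : ℝ) ≤ 1 / (q : ℝ) := by
  rw [inv_cast h]
  exact Nat.cast_div_le

theorem size_den {q : ℚ} (h : 0 < q) : (Nat.size q.den : ℝ) ≤
    Real.logb 2 (1 / (q : ℝ)) + Real.logb 2 (q.num : ℝ) + 1 := by
  have h1 : (0 : ℝ) < (q.num.natAbs : ℕ) := by exact_mod_cast num_pos h
  have h2 : (0 : ℝ) < q.den := by exact_mod_cast q.den_pos
  rw [inv_cast h, Real.logb_div h2.ne' h1.ne', num_cast h, sub_add_cancel]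
  exact size_le q.den_pos

variable {n : ℕ} {ε δ : ℚ} (h1 : 0 < ε) (h2 : ε < 1) (h3 : 0 < δ) (h4 : δ < 1)

include h1 in
theorem eP_ok : 1 / (eP (inp n ε δ) : ℝ) ≤ ε := by
  have h : (0 : ℝ) < ε := by exact_mod_cast h1
  exact (one_div_le h (lt_trans (by positivity) (lt_div_succ h1))).1 (lt_div_succ h1).le

include h3 in
theorem lP_ok : (1 / 2 : ℝ) ^ lP (inp n ε δ) ≤ δ := by
  have h : (0 : ℝ) < δ := by exact_mod_cast h3
  have h5 : ((δ.den / δ.num.natAbs + 1 : ℕ) : ℝ) ≤ 2 ^ lP (inp n ε δ) := by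
    exact_mod_cast Nat.lt_size_self _
  rw [one_div_pow]
  exact (one_div_le h (by positivity)).1 ((lt_div_succ h3).le.trans h5)

include h1 h2 h3 h4

theorem bounds (c : ℕ) {m : ℝ} (hm : m = n + 1 / (ε : ℝ) + Real.logb 2 (1 / (δ : ℝ)) + 2) :
    ((4 * tP (inp n ε δ) : ℕ) : ℝ) ≤ m ^ (485 * (c + 1)) ∧
    (((2 * tP (inp n ε δ) + 2) * pb c (3 * esize (inp n ε δ) + 9 * tP (inp n ε δ) + 2) : ℕ) : ℝ) ≤
      (m + Real.logb 2 (ε.num * δ.num)) ^ (485 * (c + 1)) := by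
  have a1 := one_lt_inv h1 h2
  have a2 : 0 < Real.logb 2 (1 / (δ : ℝ)) := Real.logb_pos one_lt_two (one_lt_inv h3 h4)
  have a3 : (1 : ℝ) ≤ ε.num := by exact_mod_cast Rat.num_pos.2 h1
  have a4 : (1 : ℝ) ≤ δ.num := by exact_mod_cast Rat.num_pos.2 h3
  have a5 := Real.logb_nonneg one_lt_two a3
  have a6 := Real.logb_nonneg one_lt_two a4
  have a7 : (0 : ℝ) ≤ n := Nat.cast_nonneg n
  have a8 : 3 ≤ m := by linarith
  have a9 : Real.logb 2 (1 / (ε : ℝ)) ≤ 1 / (ε : ℝ) := by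
    rw [Real.logb_le_iff_le_rpow one_lt_two (by linarith)]
    have := one_add_mul_self_le_rpow_one_add (s := 1) (by norm_num) a1.le
    norm_num at this ⊢
    linarith
  rw [Real.logb_mul (by linarith) (by linarith)]
  have b1 : (eP (inp n ε δ) : ℝ) ≤ 1 / (ε : ℝ) + 1 := by
    have := div_le' h1
    rw [eP, Nat.cast_add, Nat.cast_one]
    exact add_le_add_left this 1
  have b2 : (lP (inp n ε δ) : ℝ) ≤ Real.logb 2 (1 / (δ : ℝ)) + 1 :=
    (size_le (div_pos' h3 h4)).trans (add_le_add_left (Real.logb_le_logb_of_le one_lt_two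
      (by exact_mod_cast div_pos' h3 h4) (div_le' h3)) 1)
  have b3 : (tP (inp n ε δ) : ℝ) ≤ m ^ 482 := by
    rw [tP, Nat.cast_pow, show 482 = 2 * 241 from rfl, pow_mul]
    refine pow_le_pow_left₀ (Nat.cast_nonneg _) ?_ _
    push_cast
    change (n : ℝ) + _ + _ + _ ≤ _
    nlinarith
  have b4 : (esize (inp n ε δ) : ℝ) ≤
      5 * (m + (Real.logb 2 (ε.num : ℝ) + Real.logb 2 (δ.num : ℝ))) := by
    have c1 : (Nat.size n : ℝ) ≤ n := by exact_mod_cast (esize_nat n).ge.trans (esize_nat_le_self n)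
    have c2 := size_le (num_pos h1)
    have c3 := size_le (num_pos h3)
    have c4 := size_den h1
    have c5 := size_den h3
    rw [num_cast h1] at c2
    rw [num_cast h3] at c3
    simp only [inp, esize_pair, esize_nat]
    push_cast
    linarith
  generalize tP (inp n ε δ) = t at b3 ⊢
  generalize esize (inp n ε δ) = L at b4 ⊢
  have b5 : m ≤ m + (Real.logb 2 (ε.num : ℝ) + Real.logb 2 (δ.num : ℝ)) := by linarith
  generalize m + (Real.logb 2 (ε.num : ℝ) + Real.logb 2 (δ.num : ℝ)) = μ at b4 b5 ⊢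
  have d1 : ∀ x : ℝ, 3 ≤ x → 27 * x ^ 482 ≤ x ^ 485 ∧ x ≤ x ^ 482 := fun x hx => ⟨by
    rw [show 485 = 3 + 482 from rfl, pow_add]
    exact mul_le_mul_of_nonneg_right
      ((by norm_num : (27 : ℝ) = 3 ^ 3).trans_le (pow_le_pow_left₀ (by norm_num) hx 3))
      (by positivity), le_self_pow₀ (by linarith) (by norm_num)⟩
  obtain ⟨d2, d3⟩ := d1 m a8
  obtain ⟨d4, d5⟩ := d1 μ (a8.trans b5)
  have d6 : m ^ 482 ≤ μ ^ 482 := pow_le_pow_left₀ (by linarith) b5 _
  constructor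
  · refine le_trans ?_ (pow_le_pow_right₀ (by linarith) (Nat.le_mul_of_pos_right _ c.succ_pos))
    push_cast
    linarith
  · rw [pow_mul, pow_succ' (μ ^ 485), pb]
    push_cast
    refine mul_le_mul (by linarith) (pow_le_pow_left₀ (by positivity) (by linarith) c)
      (by positivity) (by linarith)

end Vale.Agent.P317Z
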