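import Vale.Agent.P317Z.Sim
import Vale.Agent.P317.Bdl.B8

/-!
The approximation scheme as an interactive computation.
-/

namespace Vale.Agent.P317Z

open Vale.Agent.Lib.PolyTime Vale.Agent.P317

/-- Inputs. -/
abbrev Inp : Type := ℕ × ℕ × ℕ × ℕ × ℕ

/-- States: the input, the coins, the answers. -/
abbrev St : Type := Inp × List Bool × List Bool

/-- The accuracy parameter. -/
def eP (x : Inp) : ℕ := x.2.2.1 / x.2.1 + 1

/-- The confidence parameter. -/
def lP (x : Inp) : ℕ := Nat.size (x.2.2.2.2 / x.2.2.2.1)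

/-- The number of coins. -/
def tP (x : Inp) : ℕ := (x.1 + 2 * eP x + lP x + 2) ^ 241

/-- The next action. -/
noncomputable def nx (s : St) : T.Action :=
  if s.2.1.length < tP s.1 then .ask false [] else T.nxt Alg.prog
    (⟨min s.1.1 s.2.1.length⟩, ⟨min (eP s.1) s.2.1.length⟩, ⟨min (lP s.1) s.2.1.length⟩, s.2.1,
      s.2.2)

/-- A state together with a coin and an answer. -/
structure Ext where
  b : Bool
  a : Bool
  s : St

instance : Enc Ext := ⟨fun i => i.b :: i.a :: enc i.s⟩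

/-- The next state. -/
def up (i : Ext) : St :=
  if i.s.2.1.length < tP i.s.1 then (i.s.1, i.s.2.1 ++ [i.b], i.s.2.2)
  else (i.s.1, i.s.2.1, i.s.2.2 ++ [i.a])

theorem pt_eP : PT ∅ eP :=
  PT.add (PT.div PT.snd'.snd.fst PT.snd'.fst) (PT.const 1)

theorem pt_lP : PT ∅ lP := PT.natSize (PT.div PT.snd'.snd.snd.snd PT.snd'.snd.snd.fst)

theorem pt_tP : PT ∅ tP :=
  PT.powConst (PT.add (PT.add (PT.add PT.fst' (PT.double pt_eP)) pt_lP) (PT.const 2)) 241

theorem pt_lt : PT ∅ fun s : St => decide (s.2.1.length < tP s.1) :=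
  PT.lt (PT.length PT.snd'.fst) (pt_tP.comp PT.fst')

theorem pt_un {f : St → ℕ} (hf : PT ∅ f) : PT ∅ fun s : St => Un.mk (min (f s) s.2.1.length) :=
  PT.mkUn (PT.min hf (PT.length PT.snd'.fst))
    ((PBd.length (A := ∅) PT.snd'.fst).mono fun _ => min_le_right _ _)

theorem pt_nx : PT ∅ nx :=
  PT.ite pt_lt (PT.const _) ((T.PT.nxt Alg.prog).comp ((pt_un PT.fst'.fst).pair
    ((pt_un (pt_eP.comp PT.fst')).pair ((pt_un (pt_lP.comp PT.fst')).pair
      (PT.snd'.fst.pair PT.snd'.snd)))))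

theorem pt_up : PT ∅ up := by
  have hs : PT ∅ Ext.s := ⟨_, FP.tail.comp FP.tail, fun _ => rfl⟩
  have hb : PT ∅ Ext.b := T.PT.rawHd (f := fun i : Ext => Raw.mk (enc i)) ⟨_, FP.id, fun _ => rfl⟩
  have ha : PT ∅ Ext.a :=
    T.PT.rawHd (f := fun i : Ext => Raw.mk (enc i).tail) ⟨_, FP.tail, fun _ => rfl⟩
  exact PT.ite (pt_lt.comp hs)
    (hs.fst.pair ((PT.append hs.snd.fst (PT.cons hb PT.nil)).pair hs.snd.snd))
    (hs.fst.pair (hs.snd.fst.pair (PT.append hs.snd.snd (PT.cons ha PT.nil))))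

theorem esize_bools (l : List Bool) : esize l = 3 * l.length := by
  induction l with
  | nil => rfl
  | cons b l ih => rw [esize_list_cons, ih, esize_bool, List.length_cons]; ring

theorem length_st (x : Inp) (ρ h : List Bool) :
    (enc ((x, ρ, h) : St)).length = 2 * esize x + 6 * ρ.length + 3 * h.length + 2 := by
  change esize _ = _
  rw [esize_pair x, esize_pair ρ, esize_bools, esize_bools]
  ring

theorem Val.succ {O : Set Word} {Q U Out : Word → Word} {p : Word → Prop} {B K : ℕ} {w : Word}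
    {r : ℝ} (h : Val O Q U Out p B K w r) : Val O Q U Out p B (K + 1) w r := by
  induction h with
  | stop h1 h2 => exact Val.stop h1 h2
  | step a h1 h2 h3 _ _ ih ih' => exact Val.step a h1 h2 h3 ih ih'

theorem frq_mono {m : ℕ} {P Q : List Bool → Prop} (h : ∀ ρ, P ρ → Q ρ) : frq m P ≤ frq m Q := by
  classical
  unfold frq
  exact div_le_div_of_nonneg_right (Nat.cast_le.2 (Finset.card_le_card
    (Finset.monotone_filter_right _ fun ρ _ => h _))) (by positivity)

variable {n : ℕ} (M₁ M₂ : Matroid (Fin n))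

theorem length_answers (A : TM.Input → TM.Action) (e l : ℕ) (ρ : List Bool) (k : ℕ) :
    (TM.answers A M₁ M₂ e l ρ k).length ≤ k := by
  induction k with
  | zero => exact le_rfl
  | succ k ih =>
    unfold TM.answers
    split
    · rw [List.length_append]
      exact Nat.add_le_add_right ih 1
    · exact ih.trans (Nat.le_succ k)

theorem algo_spec (hr : M₁.eRank = M₂.eRank) {e : ℕ} (he : 0 < e) (l : ℕ) :
    ∃ out : List Bool → ℕ, (∀ ρ : List Bool, ρ.length = (n + 2 * e + l + 2) ^ 241 →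
      TM.Outputs (T.algo Alg.prog) M₁ M₂ e l ρ ((n + 2 * e + l + 2) ^ 241) (out ρ)) ∧
      1 - (1 / 2) ^ l ≤ frq ((n + 2 * e + l + 2) ^ 241) fun ρ =>
        |(out ρ : ℝ) - T.numCommon M₁ M₂| ≤ T.numCommon M₁ M₂ / e := by
  obtain ⟨H1, H2⟩ := Alg.prog_spec n M₁ M₂ hr (2 * e) l (by omega)
  generalize (n + 2 * e + l + 2) ^ 241 = t at H1 ⊢
  refine ⟨_, fun ρ hρ => T.outputs_algo hρ H1, H2.trans ?_⟩
  have H4 := T.natCard_path (T.timed_run (oracles M₁ M₂) Alg.prog (input n (2 * e) l)) H1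
    (fun s => 0 < s.num 4 ∧ |(s.num 3 : ℝ) / s.num 4 - T.numCommon M₁ M₂| ≤
      T.numCommon M₁ M₂ / ((2 * e : ℕ) : ℝ)) t (Nat.le_add_right _ _)
  rw [frq_eq t fun ρ => (fun s : State => 0 < s.num 4 ∧
    |(s.num 3 : ℝ) / s.num 4 - T.numCommon M₁ M₂| ≤ T.numCommon M₁ M₂ / ((2 * e : ℕ) : ℝ))
      (T.path (run (oracles M₁ M₂) Alg.prog (input n (2 * e) l)) ρ).1] at H4
  exact (mul_right_cancel₀ (by positivity) H4).ge.trans
    (frq_mono fun ρ h => T.round_ok h.1 he h.2)

section Phases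

variable {G U : Word → Word} (hG : ∀ s, G (enc s) = enc (nx s)) (hU : ∀ i, U (enc i) = enc (up i))
  {x : Inp} (hx : x.1 = n) {out : List Bool → ℕ}
  (ho : ∀ ρ : List Bool, ρ.length = tP x →
    TM.Outputs (T.algo Alg.prog) M₁ M₂ (eP x) (lP x) ρ (tP x) (out ρ))
  (p : Word → Prop)

include hG hx in
theorem act_eq {ρ : List Bool} (hρ : ρ.length = tP x) (h : List Bool) :
    G (enc ((x, ρ, h) : St)) = (T.algo Alg.prog ⟨n, eP x, lP x, ρ, h⟩).code := by
  have h1 : x.1 + 2 * eP x + lP x + 2 ≤ tP x := Nat.le_self_pow (by norm_num) _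
  rw [hG, nx, if_neg hρ.ge.not_gt, T.algo, T.cvA_code]
  simp only [hρ]
  rw [min_eq_left (by omega), min_eq_left (by omega), min_eq_left (by omega), hx]
  rfl

include hG hU hx ho

theorem val_ask {ρ : List Bool} (hρ : ρ.length = tP x) (j k : ℕ) (hk : k + j = tP x) :
    Val (oracle M₁ M₂) (fun w => case3 (G w) [] [] (G w).tail) U (fun w => (G w).tail) p
      (3 * esize x + 9 * tP x + 2) j
      (enc ((x, ρ, TM.answers (T.algo Alg.prog) M₁ M₂ (eP x) (lP x) ρ k) : St))
      (ind (p (out ρ).bits)) := by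
  have hl : ∀ k, k ≤ tP x → (enc ((x, ρ, TM.answers (T.algo Alg.prog) M₁ M₂ (eP x) (lP x) ρ k) :
      St)).length ≤ 3 * esize x + 9 * tP x + 2 := fun k hk => by
    have := length_answers M₁ M₂ (T.algo Alg.prog) (eP x) (lP x) ρ k
    rw [length_st, hρ]
    omega
  induction j generalizing k with
  | zero =>
    rw [add_zero] at hk
    rw [hk]
    have h1 := act_eq hG hx hρ (TM.answers (T.algo Alg.prog) M₁ M₂ (eP x) (lP x) ρ (tP x))
    rw [ho ρ hρ] at h1
    have h2 := Val.stop (O := oracle M₁ M₂) (Q := fun w => case3 (G w) [] [] (G w).tail) (U := U)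
      (Out := fun w => (G w).tail) (p := p) (K := 0) (by rw [h1]; rfl) (hl _ le_rfl)
    rwa [h1] at h2
  | succ j ih =>
    have h2 := ih (k + 1) (by omega)
    have h1 := act_eq hG hx hρ (TM.answers (T.algo Alg.prog) M₁ M₂ (eP x) (lP x) ρ k)
    rw [TM.answers] at h2
    cases h3 : T.algo Alg.prog ⟨n, eP x, lP x, ρ,
      TM.answers (T.algo Alg.prog) M₁ M₂ (eP x) (lP x) ρ k⟩ with
    | output N =>
      rw [h3] at h2
      exact h2.succ
    | ask i S =>
      rw [h3] at h1 h2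
      have h4 : ∀ b, U (b :: TM.oracle (if i then M₂ else M₁) S ::
          enc ((x, ρ, TM.answers (T.algo Alg.prog) M₁ M₂ (eP x) (lP x) ρ k) : St)) =
          enc ((x, ρ, TM.answers (T.algo Alg.prog) M₁ M₂ (eP x) (lP x) ρ k ++
            [TM.oracle (if i then M₂ else M₁) S]) : St) := fun b =>
        (hU ⟨b, _, _⟩).trans (congrArg _ (if_neg hρ.ge.not_gt))
      rw [← add_self_div_two (ind (p (out ρ).bits))]
      refine Val.step (TM.oracle (if i then M₂ else M₁) S) ?_ ?_ (hl k (by omega))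
        ((h4 false).symm ▸ h2) ((h4 true).symm ▸ h2)
      · rw [h1]
        exact List.cons_ne_nil _ _
      · rw [h1]
        change _ ↔ i :: S ∈ oracle M₁ M₂
        cases i <;> simp [oracle, TM.oracle]

theorem val_coin (j : ℕ) (ρ : List Bool) (hρ : ρ.length + j = tP x) :
    Val (oracle M₁ M₂) (fun w => case3 (G w) [] [] (G w).tail) U (fun w => (G w).tail) p
      (3 * esize x + 9 * tP x + 2) (tP x + j) (enc ((x, ρ, []) : St))
      (frq j fun u => p (out (ρ ++ u)).bits) := by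
  classical
  induction j generalizing ρ with
  | zero =>
    rw [frq_zero, List.append_nil]
    exact val_ask M₁ M₂ hG hU hx ho p hρ (tP x) 0 (zero_add _)
  | succ j ih =>
    have h0 : ρ.length < tP x := by omega
    have h1 : G (enc ((x, ρ, []) : St)) = [true, false] :=
      (hG _).trans (congrArg _ (if_pos h0))
    have h4 : ∀ b a, U (b :: a :: enc ((x, ρ, []) : St)) = enc ((x, ρ ++ [b], []) : St) :=
      fun b a => (hU ⟨b, a, _⟩).trans (congrArg _ (if_pos h0))
    have h5 := fun b => ih (ρ ++ [b]) (by rw [List.length_append, List.length_singleton]; omega)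
    simp only [List.append_assoc, List.singleton_append] at h5
    rw [frq_succ, ← add_assoc]
    refine Val.step (decide ([false] ∈ oracle M₁ M₂)) ?_ ?_ ?_ ((h4 false _).symm ▸ h5 false)
      ((h4 true _).symm ▸ h5 true)
    · rw [h1]
      exact List.cons_ne_nil _ _
    · rw [h1]
      exact decide_eq_true_iff
    · rw [length_st, List.length_nil]
      omega

end Phases

theorem exists_fpras : ∃ (M : Machine) (c : ℕ), ∀ (n : ℕ) (M₁ M₂ : Matroid (Fin n)),
    M₁.eRank = M₂.eRank → ∀ x : Inp, x.1 = n → ∃ out : List Bool → ℕ,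
      (1 - (1 / 2) ^ lP x ≤ frq (tP x) fun ρ =>
        |(out ρ : ℝ) - T.numCommon M₁ M₂| ≤ T.numCommon M₁ M₂ / eP x) ∧
      ∀ (p : Word → Prop) (P : M.Cfg → Prop), (∀ d : M.Cfg, d.l = none → (P d ↔ p (d.stk 0))) →
        M.Res (oracle M₁ M₂) P (M.first (enc x)) (4 * tP x)
          ((2 * tP x + 2) * pb c (3 * esize x + 9 * tP x + 2))
          (frq (tP x) fun ρ => p (out ρ).bits) := by
  obtain ⟨G, h1, hG⟩ := pt_nx
  obtain ⟨U, h2, hU⟩ := pt_up
  obtain ⟨I, h3, hI⟩ : PT ∅ fun x : Inp => ((x, [], []) : St) := PT.id.pair (PT.const _)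
  obtain ⟨M, c, H⟩ := exists_machine h3 (h1.case3 FP.nil FP.nil (FP.tail.comp h1)) h2
    (FP.tail.comp h1)
  refine ⟨M, c, fun n M₁ M₂ hr x hx => ?_⟩
  obtain ⟨out, h4, h5⟩ := algo_spec M₁ M₂ hr (Nat.succ_pos (x.2.2.1 / x.2.1)) (lP x)
  subst hx
  refine ⟨out, h5, fun p P hP => ?_⟩
  have h6 := val_coin M₁ M₂ hG hU rfl h4 p (tP x) [] (zero_add _)
  rw [← hI] at h6
  exact (H _ p P hP (enc x) _ _ _ (by change esize x ≤ _; omega) h6).mono (by omega)
    (by rw [two_mul (tP x)])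

end Vale.Agent.P317Z
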