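import Vale.Agent.P317Z.Defs
import Vale.Agent.P317.Bdl.B7

/-!
Frequencies of coin strings; deterministic parts of a run.
-/

namespace Vale.Agent.P317Z

open Turing

open Classical in
/-- The frequency of the words of length `m` with the property `P`. -/
noncomputable def frq (m : ℕ) (P : List Bool → Prop) : ℝ :=
  ((Finset.univ.filter fun ρ : Fin m → Bool => P (List.ofFn ρ)).card : ℝ) / 2 ^ m

open Classical in
/-- The indicator of a proposition. -/
noncomputable def ind (p : Prop) : ℝ := if p then 1 else 0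

theorem frq_succ (m : ℕ) (P : List Bool → Prop) :
    frq (m + 1) P = (frq m (fun ρ => P (false :: ρ)) + frq m fun ρ => P (true :: ρ)) / 2 := by
  unfold frq
  rw [P317.T.card_split m P, Nat.cast_add, pow_succ]
  ring

theorem frq_const (m : ℕ) (p : Prop) : frq m (fun _ => p) = ind p := by
  unfold frq ind
  by_cases hp : p
  · simp [hp]
  · simp [hp]

theorem frq_eq (m : ℕ) (P : List Bool → Prop) :
    (Nat.card {ρ : Fin m → Bool // P (List.ofFn ρ)} : ℝ) = frq m P * 2 ^ m := by
  classical
  unfold frq
  rw [div_mul_cancel₀ _ (by positivity)]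
  exact congrArg _ (Nat.subtype_card _ fun ρ => by simp)

theorem all_of_frq {m : ℕ} {P : List Bool → Prop} (h : frq m P = 1) (ρ : Fin m → Bool) :
    P (List.ofFn ρ) := by
  classical
  unfold frq at h
  rw [div_eq_one_iff_eq (by positivity)] at h
  have h1 : (Finset.univ.filter fun ρ : Fin m → Bool => P (List.ofFn ρ)).card =
      (Finset.univ : Finset (Fin m → Bool)).card := by
    rw [Finset.card_univ, Fintype.card_fun, Fintype.card_bool, Fintype.card_fin]
    exact_mod_cast h
  exact Finset.card_filter_eq_iff.1 h1 ρ (Finset.mem_univ _)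

open Classical in
theorem frq_congr {m : ℕ} {P Q : List Bool → Prop} (h : ∀ ρ, ρ.length = m → (P ρ ↔ Q ρ)) :
    frq m P = frq m Q :=
  congrArg (fun R : (Fin m → Bool) → Prop => ((Finset.univ.filter R).card : ℝ) / 2 ^ m)
    (funext fun _ => propext (h _ List.length_ofFn))

theorem frq_zero (P : List Bool → Prop) : frq 0 P = ind (P []) := by
  rw [← frq_const 0]
  exact frq_congr fun ρ h => by rw [List.length_eq_zero_iff.1 h]

namespace Machine

variable {M : Machine} {O : Set (List Bool)}

theorem run_cons (c : M.Cfg) (b : Bool) (ρ : List Bool) :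
    M.run O c (b :: ρ) = M.run O (M.step O c b) ρ := rfl

theorem step_none {c : M.Cfg} (h : c.l = none) (b : Bool) : M.step O c b = c := by
  unfold step
  rw [h]

theorem run_none {c : M.Cfg} (h : c.l = none) (ρ : List Bool) : M.run O c ρ = c := by
  induction ρ with
  | nil => rfl
  | cons b ρ ih => rw [run_cons, step_none h, ih]

theorem calls_none {c : M.Cfg} (h : c.l = none) (ρ : List Bool) : M.calls O c ρ = 0 := by
  induction ρ with
  | nil => rfl
  | cons b ρ ih => rw [calls, step_none h, ih, h]; simp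

variable (M O) in
/-- The machine goes from `c` to `d` in `m` steps without oracle calls, for all coins. -/
def Det : ℕ → M.Cfg → M.Cfg → Prop
  | 0, c, d => c = d
  | m + 1, c, d => c.l ≠ some M.query ∧ ∀ b, Det m (M.step O c b) d

theorem Det.trans {m n : ℕ} {c d e : M.Cfg} (h₁ : M.Det O m c d) (h₂ : M.Det O n d e) :
    M.Det O (n + m) c e := by
  induction m generalizing c with
  | zero => exact (show c = d from h₁) ▸ h₂
  | succ m ih => exact ⟨h₁.1, fun b => ih (h₁.2 b)⟩

theorem Det.frq {m : ℕ} {c d : M.Cfg} (h : M.Det O m c d) (P : M.Cfg → Prop) (T : ℕ) :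
    frq (T + m) (fun ρ => P (M.run O c ρ)) = frq T fun ρ => P (M.run O d ρ) := by
  induction m generalizing c with
  | zero => rw [show c = d from h, add_zero]
  | succ m ih =>
    rw [← add_assoc, frq_succ]
    simp only [run_cons]
    rw [ih (h.2 false), ih (h.2 true)]
    ring

theorem Det.calls {m K : ℕ} {c d : M.Cfg} (h : M.Det O m c d) (hd : ∀ ρ, M.calls O d ρ ≤ K)
    (ρ : List Bool) : M.calls O c ρ ≤ K := by
  induction m generalizing c ρ with
  | zero => exact (show c = d from h) ▸ hd ρ
  | succ m ih =>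
    cases ρ with
    | nil => exact Nat.zero_le _
    | cons b ρ =>
      rw [Machine.calls, if_neg h.1, zero_add]
      exact ih (h.2 b) ρ

variable (M O) in
/-- From `c` on, the machine makes at most `K` calls, and after `T` or more steps the property `P`
holds with frequency `r`. -/
def Res (P : M.Cfg → Prop) (c : M.Cfg) (K T : ℕ) (r : ℝ) : Prop :=
  (∀ ρ, M.calls O c ρ ≤ K) ∧ ∀ T', T ≤ T' → frq T' (fun ρ => P (M.run O c ρ)) = r

variable {P : M.Cfg → Prop} {c d : M.Cfg} {K T : ℕ} {r : ℝ}

theorem Res.mono {K' T' : ℕ} (h : M.Res O P c K T r) (hK : K ≤ K') (hT : T ≤ T') :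
    M.Res O P c K' T' r :=
  ⟨fun ρ => (h.1 ρ).trans hK, fun T'' h' => h.2 T'' (hT.trans h')⟩

theorem Res.halt (h : c.l = none) : M.Res O P c 0 0 (ind (P c)) :=
  ⟨fun ρ => (calls_none h ρ).le, fun T _ => by simp only [run_none h, frq_const]⟩

theorem Res.det {m : ℕ} (h : M.Det O m c d) (hd : M.Res O P d K T r) :
    M.Res O P c K (T + m) r :=
  ⟨h.calls hd.1, fun T' h' => by
    obtain ⟨T'', rfl⟩ : ∃ T'', T' = T'' + m := ⟨T' - m, by omega⟩
    rw [h.frq, hd.2 T'' (by omega)]⟩

theorem Res.step {r' : ℝ} (h : M.Res O P (M.step O c false) K T r)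
    (h' : M.Res O P (M.step O c true) K T r') : M.Res O P c (K + 1) (T + 1) ((r + r') / 2) := by
  refine ⟨fun ρ => ?_, fun T' hT => ?_⟩
  · cases ρ with
    | nil => exact Nat.zero_le _
    | cons b ρ =>
      have h1 : M.calls O (M.step O c b) ρ ≤ K := by
        cases b
        · exact h.1 ρ
        · exact h'.1 ρ
      rw [Machine.calls]
      split_ifs <;> omega
  · obtain ⟨T'', rfl⟩ : ∃ T'', T' = T'' + 1 := ⟨T' - 1, by omega⟩
    rw [frq_succ]
    simp only [run_cons]
    rw [h.2 T'' (by omega), h'.2 T'' (by omega)]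

end Machine

end Vale.Agent.P317Z
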